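import Vale.Agent.P155.NO801.Def
import Vale.Agent.P155.NT924.XA

/-!
# P155: the outer condition is necessary, block (A)
-/

namespace Vale.Agent.P155.NO801

open MeasureTheory Filter Topology TopologicalSpace Vale.Agent.P155 Vale.Agent.P155.Q1 J

theorem pt_pos (δ : ℝ) (a : ℂ) (v : Pt) : Q1.pt δ a v = K.pos δ a v := by
  unfold Q1.pt K.pos
  apply Complex.ext <;> simp

theorem floor_half {t : ℝ} (ht : 2 ≤ t) : t / 2 ≤ (⌊t⌋₊ : ℝ) := by
  have := Nat.lt_floor_add_one t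
  linarith

/-- **(A)** -/
theorem ax : AX := by
  intro Ω _ hb _ S hout
  obtain ⟨z, ρ, hρ, A0, hA0, hz, hfr⟩ := NT924.not_outer_disc hb S hout
  obtain ⟨κ, hκ⟩ : ∃ κ : ℝ, κ = min (1 / 16) (ρ / (16 * (A0 + 1))) := ⟨_, rfl⟩
  have hκ0 : 0 < κ := by rw [hκ]; positivity
  have hκ1 : κ ≤ 1 / 16 := by rw [hκ]; exact min_le_left _ _
  have hκ2 : κ ≤ ρ / (16 * (A0 + 1)) := by rw [hκ]; exact min_le_right _ _
  have hmesh : ∀ᶠ n in atTop, S.norm.δ n < ρ / 16 :=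
    (tendsto_order.1 S.norm.mesh).2 _ (by positivity)
  refine ⟨z, ρ, κ, hρ, hκ0, by linarith, hz, fun n => K.cell (S.norm.δ n) (S.norm.a n) z,
    fun n => ⌊ρ / (8 * S.norm.δ n)⌋₊, fun n => ⌈A0 / S.norm.δ n⌉₊, ?_, ?_⟩
  · refine tendsto_nat_ceil_atTop.comp ?_
    refine Tendsto.const_mul_atTop hA0 ?_
    exact tendsto_inv_nhdsGT_zero.comp (tendsto_nhdsWithin_iff.2
      ⟨S.norm.mesh, Eventually.of_forall S.norm.pos⟩)
  · refine (hfr.and_eventually hmesh).mono ?_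
    rintro n ⟨⟨-, -, -, -, hdF, hA⟩, hd⟩
    have hδ : 0 < S.norm.δ n := S.norm.pos n
    obtain ⟨hfit, -, hR1, -, -⟩ := hA A0 le_rfl
    have ht : 2 ≤ ρ / (8 * S.norm.δ n) := by
      rw [le_div_iff₀ (by positivity)]
      linarith
    have hm1 := floor_half ht
    have hm2 := Nat.floor_le (show 0 ≤ ρ / (8 * S.norm.δ n) by positivity)
    have e1 : S.norm.δ n * (ρ / (8 * S.norm.δ n)) = ρ / 8 := by field_simp
    have hm3 : ρ / 16 ≤ S.norm.δ n * (⌊ρ / (8 * S.norm.δ n)⌋₊ : ℝ) := by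
      have := mul_le_mul_of_nonneg_left hm1 hδ.le
      nlinarith
    have hm4 : S.norm.δ n * (⌊ρ / (8 * S.norm.δ n)⌋₊ : ℝ) ≤ ρ / 8 := by
      rw [← e1]
      exact mul_le_mul_of_nonneg_left hm2 hδ.le
    refine ⟨hfit, ?_, ?_, ?_, ?_⟩
    · refine le_of_mul_le_mul_left (le_trans ?_ hm3) hδ
      have h1 : κ * (S.norm.δ n * (⌈A0 / S.norm.δ n⌉₊ : ℝ)) ≤
          ρ / (16 * (A0 + 1)) * (A0 + 1) := by
        refine mul_le_mul hκ2 hR1 (by positivity) (by positivity)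
      have h2 : ρ / (16 * (A0 + 1)) * (A0 + 1) = ρ / 16 := by field_simp
      calc S.norm.δ n * (κ * (⌈A0 / S.norm.δ n⌉₊ : ℝ))
          = κ * (S.norm.δ n * (⌈A0 / S.norm.δ n⌉₊ : ℝ)) := by ring
        _ ≤ ρ / 16 := h1.trans h2.le
    · have h3 : ((4 * ⌊ρ / (8 * S.norm.δ n)⌋₊ : ℕ) : ℝ) ≤
          (dF (S.norm.T n).faceSet (K.cell (S.norm.δ n) (S.norm.a n) z) : ℝ) := by
        refine le_of_mul_le_mul_left ?_ hδ
        push_cast
        linarith
      exact_mod_cast h3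
    · nlinarith
    · intro v hv
      have h4 := NT924.dist_pos_le hδ (S.norm.a n) z v
      rw [pt_pos]
      have h6 : ((dinf (K.cell (S.norm.δ n) (S.norm.a n) z) v : ℤ) : ℝ) ≤
          (⌊ρ / (8 * S.norm.δ n)⌋₊ : ℝ) + 2 := by
        have h7 := K.dinf_nonneg (K.cell (S.norm.δ n) (S.norm.a n) z) v
        unfold dn at hv
        beta_reduce at hv
        have h8 : dinf (K.cell (S.norm.δ n) (S.norm.a n) z) v ≤
            (⌊ρ / (8 * S.norm.δ n)⌋₊ : ℤ) + 2 := by omega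
        exact_mod_cast h8
      have h10 := mul_le_mul_of_nonneg_left h6 hδ.le
      nlinarith

end Vale.Agent.P155.NO801
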