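import Vale.Agent.P155.QQ.Fin
import Vale.Agent.P155.J.Iface
import Vale.Agent.P155.HT426.Sym

/-!
# P155: the outer condition is necessary, definitions and exact statements of the blocks
-/

namespace Vale.Agent.P155.NO801

open MeasureTheory Filter Topology TopologicalSpace Vale.Agent.P155 Vale.Agent.P155.Q1 J

/-! ## Discrete part -/

/-- the loop `L` surrounds some but not all faces of the box -/
def Cuts (ω : Conf) (L : Set Pt) (z : Pt) (m : ℕ) : Prop :=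
  (∃ x ∈ box z m, surr ω L x) ∧ ∃ y ∈ box z m, ¬ surr ω L y

/-- all loops which cut the box are small, and fewer than `k` loops surround the box -/
def GoodX (k : ℕ) (z : Pt) (m e : ℕ) (ω : Conf) : Prop :=
  (∀ L ∈ Loops ω, Cuts ω L z m → ∀ v ∈ L, ∀ w ∈ L, dn v w ≤ e) ∧
    Set.ncard {L | L ∈ Loops ω ∧ ∀ x ∈ box z m, surr ω L x} < k

/-- **(D1)** a test function with mean zero and its energy -/
def D1 : Prop := ∀ κ : ℝ, 0 < κ → κ ≤ 1 → ∃ C0 : ℝ, 0 ≤ C0 ∧ ∃ c0 : ℝ, 0 < c0 ∧ ∃ R0 : ℕ,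
  ∀ R : ℕ, R0 ≤ R → ∀ T : Temp, Skel.Fits T R → ∀ (z : Pt) (m : ℕ), κ * R ≤ m →
  4 * m ≤ dF T.faceSet z → ∃ φ : Pt → ℝ, IsBump (0, 0) R (C0 / (R : ℝ) ^ 2) φ ∧
    (∀ x, x ∉ box z m → φ x = 0) ∧ ∑ᶠ x, φ x = 0 ∧ ∀ u, IsGreen T.faceSet φ u → c0 ≤ pair φ u

/-- **(D2)** the energy off small loops -/
def D2 : Prop := ∃ C : ℝ, 0 ≤ C ∧ ∀ (C0 : ℝ) (R e : ℕ) (T : Temp) (φ u : Pt → ℝ) (z : Pt)
  (m k : ℕ) (ω : Conf), 0 ≤ C0 → 1 ≤ R → Skel.Fits T R → m ≤ R → (∀ x, |φ x| ≤ C0 / (R : ℝ) ^ 2) →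
  (∀ x, x ∉ box z m → φ x = 0) → ω ∈ DD T.V → GoodX k z m e ω → IsGreen (Ok T k ω) φ u →
  |pair φ u| ≤ C * C0 ^ 2 * ((e : ℝ) + 1) ^ 2 / (R : ℝ) ^ 2

open Classical in
/-- **(D3)** the second moment of the first `k` levels -/
def D3 : Prop := ∃ C : ℝ, 0 ≤ C ∧ ∀ (C0 : ℝ) (R e : ℕ) (T : Temp) (φ : Pt → ℝ) (z : Pt)
  (m k : ℕ), 0 ≤ C0 → 1 ≤ R → Skel.Fits T R → m ≤ R → (∀ x, |φ x| ≤ C0 / (R : ℝ) ^ 2) →
  (∀ x, x ∉ box z m → φ x = 0) → ∑ᶠ x, φ x = 0 →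
  Ex T.V (fun ω => (if GoodX k z m e ω then (1 : ℝ) else 0) *
    (∑ᶠ x : Pt, φ x * ((hk k ω x : ℝ) - hk 0 ω x)) ^ 2) ≤
    C * C0 ^ 2 * (k : ℝ) ^ 2 * ((e : ℝ) + 1) ^ 2 / (R : ℝ) ^ 2

/-- **(D4)** the good event does not have probability close to one -/
def D4 : Prop := ∀ κ : ℝ, 0 < κ → κ ≤ 1 → ∃ c1 : ℝ, 0 < c1 ∧ ∀ k : ℕ, ∃ ε : ℝ, 0 < ε ∧
  ∃ R0 : ℕ, ∀ R : ℕ, R0 ≤ R → ∀ T : Temp, Skel.Fits T R → ∀ (z : Pt) (m e : ℕ), κ * R ≤ m →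
  4 * m ≤ dF T.faceSet z → (e : ℝ) ≤ ε * R → c1 ≤ Pr T.V (fun ω => ¬ GoodX k z m e ω)

/-! ## Geometry -/

/-- **(A)** an approximation which is not `Outer` contains a macroscopic ball far from `Ω`,
infinitely often; discrete form for the normalised approximation. -/
def AX : Prop := ∀ Ω : Set ℂ, IsOpen Ω → Bornology.IsBounded Ω → Ω.Nonempty → ∀ S : Approx Ω,
  ¬ S.Outer → ∃ (z0 : ℂ) (ρ κ : ℝ), 0 < ρ ∧ 0 < κ ∧ κ ≤ 1 ∧ (∀ w ∈ Ω, 8 * ρ ≤ dist w z0) ∧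
  ∃ (x : ℕ → Pt) (m R : ℕ → ℕ), Tendsto R atTop atTop ∧ ∃ᶠ n in atTop,
    Skel.Fits (S.norm.T n) (R n) ∧ κ * R n ≤ m n ∧ 4 * m n ≤ dF (S.norm.T n).faceSet (x n) ∧
    ρ * κ ≤ S.norm.δ n * m n ∧
    ∀ v : Pt, dn (x n) v ≤ m n + 2 → dist (Q1.pt (S.norm.δ n) (S.norm.a n) v) z0 ≤ ρ

/-! ## Functionals of loop collections -/

/-- distance from a point to a loop -/
noncomputable def pnr (z : ℂ) (γ : PL) : ℝ := Metric.infDist z (Set.range γ.c)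

theorem pnr_le (z : ℂ) (γ γ' : PL) : pnr z γ ≤ pnr z γ' + dist γ γ' := by
  refine le_of_forall_pos_lt_add fun ε hε => ?_
  obtain ⟨φ, hφ⟩ := exists_lt (show ldist γ γ' < dist γ γ' + ε / 2 by rw [dist_def]; linarith)
  have hne : (Set.range γ'.c).Nonempty := ⟨γ'.c 0, 0, rfl⟩
  obtain ⟨y, ⟨t, rfl⟩, hy⟩ := (Metric.infDist_lt_iff hne).1
    (show Metric.infDist z (Set.range γ'.c) < pnr z γ' + ε / 2 by unfold pnr; linarith)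
  have h1 : dist (γ.c (φ.symm t)) (γ'.c t) ≤ dist γ.c (γ'.c.comp (φ : C(S1, S1))) := by
    have := ContinuousMap.dist_apply_le_dist (f := γ.c) (g := γ'.c.comp (φ : C(S1, S1)))
      (φ.symm t)
    simpa using this
  have h2 : pnr z γ ≤ dist z (γ.c (φ.symm t)) := Metric.infDist_le_dist_of_mem ⟨_, rfl⟩
  have h3 := dist_triangle z (γ'.c t) (γ.c (φ.symm t))
  rw [dist_comm (γ'.c t)] at h3
  linarith

/-- distance from a point to a loop -/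
noncomputable def nr (z : ℂ) : Loop → ℝ :=
  SeparationQuotient.lift (pnr z) (by
    intro γ γ' h
    have h0 : dist γ γ' = 0 := Metric.inseparable_iff.1 h
    have h1 := pnr_le z γ γ'
    have h2 := pnr_le z γ' γ
    rw [dist_comm] at h2
    linarith)

@[simp] theorem nr_mk (z : ℂ) (γ : PL) : nr z (SeparationQuotient.mk γ) = pnr z γ := rfl

theorem nr_le (z : ℂ) (γ γ' : Loop) : nr z γ ≤ nr z γ' + dist γ γ' := by
  obtain ⟨γ, rfl⟩ := SeparationQuotient.surjective_mk γ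
  obtain ⟨γ', rfl⟩ := SeparationQuotient.surjective_mk γ'
  exact pnr_le z γ γ'

/-- cut-off of the diameter: `0` for `diam ≤ η / 2`, `1` for `diam ≥ η` -/
noncomputable def fB (η : ℝ) (γ : Loop) : ℝ := min 1 (max 0 (2 * γ.diam / η - 1))

/-- ... times a cut-off of the distance to `z`: `1` for `nr ≤ ρ`, `0` for `nr ≥ 2 ρ` -/
noncomputable def fA (z : ℂ) (ρ η : ℝ) (γ : Loop) : ℝ := fB η γ * min 1 (max 0 (2 - nr z γ / ρ))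

/-- the sum of `f` over the members of a loop collection -/
noncomputable def Sf (f : Loop → ℝ) (Γ : LoopColl) : ℝ := ∑ᶠ γ : Loop, (Γ.mult γ : ℝ) * f γ

/-- **(B)** continuity of truncated sums over the members of a loop collection -/
def BX : Prop := ∀ (f : Loop → ℝ) (Cf η t : ℝ), 0 < η → 0 ≤ t → (∀ γ, 0 ≤ f γ) →
  (∀ γ γ', |f γ - f γ'| ≤ Cf * dist γ γ') → (∀ γ, γ.diam ≤ η → f γ = 0) →
  Continuous (fun Γ : LoopColl => min 1 (t * Sf f Γ))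

/-- **(C)** translation between cycles and curves -/
structure CX (V : Finset Pt) (δ : ℝ) (a : ℂ) (ω : Conf) : Prop where
  diam : ∀ L ∈ Loops ω, ∀ v ∈ L, ∀ w ∈ L, δ * dn v w ≤ (loopOf δ a ω L).diam
  nr : ∀ (z0 : ℂ), ∀ L ∈ Loops ω, ∀ v ∈ L, nr z0 (loopOf δ a ω L) ≤ dist (pt δ a v) z0
  cut : ∀ (z : Pt) (m : ℕ), ∀ L ∈ Loops ω, Cuts ω L z m → ∃ v ∈ L, dn z v ≤ m + 1
  surr : ∀ (z : Pt) (m : ℕ), ∀ L ∈ Loops ω, (∀ x ∈ box z m, surr ω L x) →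
    ∃ v ∈ L, ∃ w ∈ L, 2 * m ≤ dn v w
  sum : ∀ (f : Loop → ℝ), (∀ γ, 0 ≤ f γ) → ∀ s : Finset (Set Pt), (∀ L ∈ s, L ∈ Loops ω) →
    ∑ L ∈ s, f (loopOf δ a ω L) ≤ Sf f (LL δ a ω)

/-- **(C)** -/
def CP : Prop := ∀ (V : Finset Pt) (δ : ℝ) (a : ℂ), 0 < δ → ∀ ω ∈ DD V, CX V δ a ω

/-- **(E)** the outer condition is necessary -/
def EX0 : Prop := ∀ Ω : Set ℂ, IsOpen Ω → Bornology.IsBounded Ω → Ω.Nonempty →
  ∀ μ : Measure LoopColl, IsProbabilityMeasure μ → IsNestedCLE4 Ω μ → ∀ S : Approx Ω,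
  (∀ F : LoopColl → ℝ, Continuous F → (∃ C, ∀ Γ, |F Γ| ≤ C) →
    Tendsto (fun n => Ex (S.T n).V (fun ω => F (LL (S.δ n) (S.a n) ω))) atTop
      (𝓝 (∫ Γ, F Γ ∂μ))) → S.Outer

end Vale.Agent.P155.NO801
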