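import Vale.Agent.P155.V743.XB3
import Vale.Agent.P155.E.Point

/-!
# P155: the outer condition is necessary, assembly
-/

namespace Vale.Agent.P155.NO801

open MeasureTheory Filter Topology TopologicalSpace Vale.Agent.P155 Vale.Agent.P155.Q1 J

/-- the normalised approximation, as an `Approx` -/
noncomputable def nrm {Ω : Set ℂ} (S : Approx Ω) : Approx Ω where
  T := S.norm.T
  δ := S.norm.δ
  a := S.norm.a
  pos := S.norm.pos
  mesh := S.norm.mesh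
  cara₁ := S.norm.cara₁
  cara₂ := S.norm.cara₂
  haus₁ := S.norm.haus₁
  haus₂ := S.norm.haus₂

theorem nrm_conv {Ω : Set ℂ} {S : Approx Ω} {μ : Measure LoopColl} (h : V743.ConvTo S μ) :
    V743.ConvTo (nrm S) μ := by
  intro F hF hb
  have h1 := h F hF hb
  simp only [← S.Ex_norm] at h1
  exact h1

/-- what happens off the good event -/
theorem not_good {V : Finset Pt} {δ : ℝ} {a : ℂ} {ω : Conf} (hδ : 0 < δ) (hω : ω ∈ DD V)
    (hC : CX V δ a ω) {z0 : ℂ} {ρ μ₁ μ₂ : ℝ} {k m e : ℕ} {z : Pt}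
    (hpos : ∀ v : Pt, dn z v ≤ m + 2 → dist (Q1.pt δ a v) z0 ≤ ρ) (h1 : μ₁ ≤ δ * ((e : ℝ) + 1))
    (h2 : μ₂ ≤ δ * (2 * m)) (h : ¬ GoodX k z m e ω) :
    (∃ L ∈ Loops ω, μ₁ ≤ (loopOf δ a ω L).diam ∧ V743.near z0 (loopOf δ a ω L) ≤ ρ) ∨
      ∃ s : Finset (Set Pt), k ≤ s.card ∧
        ∀ L ∈ s, L ∈ Loops ω ∧ μ₂ ≤ (loopOf δ a ω L).diam := by
  unfold GoodX at h
  rw [not_and_or] at h
  rcases h with h | h
  · left
    push Not at h
    obtain ⟨L, hL, hcut, v, hv, w, hw, hvw⟩ := h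
    refine ⟨L, hL, ?_, ?_⟩
    · refine h1.trans (le_trans ?_ (hC.diam L hL v hv w hw))
      refine mul_le_mul_of_nonneg_left ?_ hδ.le
      exact_mod_cast hvw
    · obtain ⟨u, hu, hzu⟩ := hC.cut z m L hL hcut
      rw [V743.near_eq]
      exact (hC.nr z0 L hL u hu).trans (hpos u (by omega))
  · right
    rw [not_lt] at h
    have hfin : {L | L ∈ Loops ω ∧ ∀ x ∈ box z m, surr ω L x}.Finite :=
      (Vale.Agent.P155.L.loops_finite hω).subset fun _ hx => hx.1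
    refine ⟨hfin.toFinset, ?_, ?_⟩
    · rwa [← Set.ncard_eq_toFinset_card _ hfin]
    · intro L hL
      rw [Set.Finite.mem_toFinset] at hL
      refine ⟨hL.1, ?_⟩
      obtain ⟨v, hv, w, hw, hvw⟩ := hC.surr z m L hL.1 hL.2
      refine h2.trans (le_trans ?_ (hC.diam L hL.1 v hv w hw))
      refine mul_le_mul_of_nonneg_left ?_ hδ.le
      exact_mod_cast hvw

/-- **(E)** -/
theorem ex0_of (hA : AX) (hC : CP) (hD : D4) : EX0 := by
  intro Ω hΩ hb hne μ _ hμ S hconv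
  by_contra hout
  obtain ⟨z0, ρ, κ, hρ, hκ, hκ1, hfar, x, m, R, hR, hfr⟩ := hA Ω hΩ hb hne S hout
  obtain ⟨c1, hc1, hD1⟩ := hD κ hκ hκ1
  have hcv : V743.ConvTo (nrm S) μ := nrm_conv hconv
  have hρκ : 0 < ρ * κ := mul_pos hρ hκ
  obtain ⟨k, hk⟩ := V743.count_ev (nrm S) hμ hcv hρκ (show 0 < c1 / 4 by positivity)
  obtain ⟨ε, hε, R0, hD2⟩ := hD1 k
  have hm1 : 0 < ε * (ρ * κ) := mul_pos hε hρκ
  have hmt := V743.meet_tendsto (nrm S) hμ hcv hρ hm1 (z := z0)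
    (fun w hw => by linarith [hfar w hw])
  have hmt' := (tendsto_order.1 hmt).2 (c1 / 4) (by positivity)
  obtain ⟨n, ⟨hfit, hκR, hdF, hδm, hpos⟩, hkn, hmn, hRn⟩ :=
    (hfr.and_eventually (hk.and (hmt'.and (hR.eventually_ge_atTop R0)))).exists
  have hδ : 0 < S.norm.δ n := S.norm.pos n
  have hmR : m n ≤ R n := by
    have := E.dF_le_of_fits hfit (x n)
    omega
  have hδR : ρ * κ ≤ S.norm.δ n * R n :=
    hδm.trans (mul_le_mul_of_nonneg_left (by exact_mod_cast hmR) hδ.le)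
  have h1 := hD2 (R n) hRn (S.norm.T n) hfit (x n) (m n) ⌊ε * R n⌋₊ hκR hdF
    (Nat.floor_le (by positivity))
  have h2 : Pr (S.norm.T n).V (fun ω => ¬ GoodX k (x n) (m n) ⌊ε * R n⌋₊ ω) ≤
      Pr (S.norm.T n).V (fun ω => (∃ L ∈ Loops ω, ε * (ρ * κ) ≤
          (loopOf (S.norm.δ n) (S.norm.a n) ω L).diam ∧
          V743.near z0 (loopOf (S.norm.δ n) (S.norm.a n) ω L) ≤ ρ) ∨
        ∃ s : Finset (Set Pt), k ≤ s.card ∧ ∀ L ∈ s, L ∈ Loops ω ∧ ρ * κ ≤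
          (loopOf (S.norm.δ n) (S.norm.a n) ω L).diam) := by
    refine E.Pr_mono fun ω hω hbad => ?_
    refine not_good hδ hω (hC _ _ _ hδ ω hω) hpos ?_ ?_ hbad
    · have h3 := Nat.lt_floor_add_one (ε * (R n : ℝ))
      calc ε * (ρ * κ) ≤ ε * (S.norm.δ n * R n) := mul_le_mul_of_nonneg_left hδR hε.le
        _ = S.norm.δ n * (ε * R n) := by ring
        _ ≤ S.norm.δ n * ((⌊ε * (R n : ℝ)⌋₊ : ℝ) + 1) :=
            mul_le_mul_of_nonneg_left h3.le hδ.le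
    · have h4 : 0 ≤ S.norm.δ n * m n := by positivity
      nlinarith
  have h3 := E.Pr_or_le (S.norm.T n).V
    (fun ω => ∃ L ∈ Loops ω, ε * (ρ * κ) ≤ (loopOf (S.norm.δ n) (S.norm.a n) ω L).diam ∧
      V743.near z0 (loopOf (S.norm.δ n) (S.norm.a n) ω L) ≤ ρ)
    (fun ω => ∃ s : Finset (Set Pt), k ≤ s.card ∧ ∀ L ∈ s, L ∈ Loops ω ∧ ρ * κ ≤
      (loopOf (S.norm.δ n) (S.norm.a n) ω L).diam)
  have h4 : Pr (S.norm.T n).V (fun ω => ∃ L ∈ Loops ω, ε * (ρ * κ) ≤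
      (loopOf (S.norm.δ n) (S.norm.a n) ω L).diam ∧
      V743.near z0 (loopOf (S.norm.δ n) (S.norm.a n) ω L) ≤ ρ) < c1 / 4 := hmn
  have h5 : Pr (S.norm.T n).V (fun ω => ∃ s : Finset (Set Pt), k ≤ s.card ∧
      ∀ L ∈ s, L ∈ Loops ω ∧ ρ * κ ≤
        (loopOf (S.norm.δ n) (S.norm.a n) ω L).diam) ≤ c1 / 4 := hkn
  linarith

end Vale.Agent.P155.NO801
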