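import Vale.Agent.P155.NO801.YI
import Vale.Agent.P155.QQ.Exact

/-!
# P155, (I4a): the loops as a function of the carpets, on the canonical space
-/

namespace Vale.Agent.P155.NO801.Y

open MeasureTheory Filter Topology TopologicalSpace ProbabilityTheory Vale.Agent.P155
  Vale.Agent.P155.Q1 Vale.Agent.P155.EX

theorem pin_bdt : EX.PIN ∧ EX.BDT :=
  QQ.pin_bdt NT426.t1p (NT276.count_of NT878.vbc) fun _ hF =>
    NT814.US.usF_of (NT814.US.opx_of_opf (NT924.opf_of (NT733.op1_five NT613.vbp2))) hF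

section

variable {V : Set ℂ} {Θ : Type} [MeasurableSpace Θ] {P : Measure Θ}
  {G : ℕ → Θ → NonemptyCompacts ℂ} {ξ : ℕ → ℕ → Θ → ℝ}

/-- the law of the sequence of carpets -/
noncomputable def lawS (P : Measure Θ) (G : ℕ → Θ → NonemptyCompacts ℂ) : Measure SQ :=
  P.map (fun x k => G k x)

theorem measurable_seq (h : T211Q.FairCarpets P V G ξ) : Measurable (fun x k => G k x : Θ → SQ) :=
  measurable_pi_lambda _ fun k => h.mG k

theorem lawS_prob (h : T211Q.FairCarpets P V G ξ) : IsProbabilityMeasure (lawS P G) := by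
  have := h.prob
  exact Measure.isProbabilityMeasure_map (measurable_seq h).aemeasurable

theorem lawS_zero (h : T211Q.FairCarpets P V G ξ) :
    ∀ᵐ s ∂(lawS P G), (s 0 : Set ℂ) = frontier V := by
  unfold lawS
  rw [ae_map_iff (measurable_seq h).aemeasurable]
  · filter_upwards [h.sc.zero] with x hx
    exact hx.1
  · have h0 : Measurable fun s : SQ => s 0 := measurable_pi_apply 0
    exact h0 (U613.isClosed_eq_set (frontier V)).measurableSet

theorem lawS_null (hb : Bornology.IsBounded V) (h : T211Q.FairCarpets P V G ξ) :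
    ∀ᵐ s ∂(lawS P G), ∀ k, volume ((s k : Set ℂ) ∩ V) = 0 := by
  unfold lawS
  rw [ae_map_iff (measurable_seq h).aemeasurable]
  · exact h.sc.null
  · rw [Set.ofPred_forall]
    refine MeasurableSet.iInter fun k => ?_
    have h0 : Measurable fun s : SQ => s k := measurable_pi_apply k
    exact h0 (U613.measurable_null hb)

open scoped PiCountable in
theorem pass_law (ho : IsOpen V) (hb : Bornology.IsBounded V) (hne : V.Nonempty)
    (hsc : SimplyConnectedSpace V) (S : TempApprox V) (h : T211Q.FairCarpets P V G ξ) :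
    (∀ F : LoopColl → ℝ, Continuous F → (∃ C, ∀ y, |F y| ≤ C) →
      AEStronglyMeasurable (fun s => F (Gam V s)) (lawS P G) ∧
      Tendsto (fun n => Ex (S.T n).V (fun ω => F (LL (S.δ n) (S.a n) ω))) atTop
        (𝓝 (∫ s, F (Gam V s) ∂(lawS P G)))) ∧
    ∀ᵐ s ∂(lawS P G), ∃ (n : ℕ → ℕ) (ω : ℕ → Conf), Pre V S n ω s := by
  have hP := h.prob
  have hL := lawS_prob h
  obtain ⟨-, hlim, -⟩ := gaskets QQ.full ho hb hne hsc S h
  have key : ∀ F : LoopColl → ℝ, Continuous F → (∃ C, ∀ y, |F y| ≤ C) →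
      AEStronglyMeasurable (fun s => F (Gam V s)) (lawS P G) ∧
      Tendsto (fun n => K.avg (DD (S.T n).V) (fun ω => F (LL (S.δ n) (S.a n) ω))) atTop
        (𝓝 (∫ s, F (Gam V s) ∂(lawS P G))) ∧
      ∀ᵐ s ∂(lawS P G), ∃ (n : ℕ → ℕ) (ω : ℕ → Conf), Tendsto n atTop atTop ∧
        (∀ j, ω j ∈ DD (S.T (n j)).V) ∧
        (∀ i, ∃ c, ∀ᶠ j in atTop, CdX V S i c (n j) (ω j)) ∧
        Tendsto (fun j => (fun l => toNC (gasket (S.δ (n j)) (S.a (n j)) (S.T (n j)) l (ω j))))
          atTop (𝓝 (fun l => s l)) := by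
    intro F hF hFb
    obtain ⟨CF, hCF⟩ := hFb
    refine pass_countable' (lawS P G) (E := ℕ → NonemptyCompacts ℂ) (D := fun n => DD (S.T n).V)
      (Y := fun n ω l => toNC (gasket (S.δ n) (S.a n) (S.T n) l ω)) (Z := fun s l => s l)
      (Cd := CdX V S) (Φn := fun n ω => F (LL (S.δ n) (S.a n) ω))
      (Φ := fun s => F (Gam V s)) (M := CF)
      (fun F hF => hF.measurable.aestronglyMeasurable) ?_ ?_ (fun n ω _ => hCF _) ?_
    · intro F hF hFb
      have e : ∫ s, F (fun l => s l) ∂(lawS P G) = ∫ x, F (fun l => G l x) ∂P :=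
        integral_map (measurable_seq h).aemeasurable hF.measurable.aestronglyMeasurable
      rw [e]
      exact hlim F hF hFb
    · intro i ε hε
      exact cdX_tight pin_bdt.1 pin_bdt.2 ho hb hne hsc QQ.tight.1 QQ.tight.2.1 QQ.tight.2.2 i ε hε
    · filter_upwards [lawS_zero h, lawS_null hb h] with s h2 h3 n ω hn hω hcd hY
      exact (hF.tendsto _).comp (conv_of_pre jord (pre_of ho hb hn hω hY h2 h3 hcd))
  refine ⟨fun F hF hFb => ⟨(key F hF hFb).1, (key F hF hFb).2.1⟩, ?_⟩
  filter_upwards [(key (fun _ => 0) continuous_const ⟨0, by simp⟩).2.2, lawS_zero h,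
    lawS_null hb h] with s hx h2 h3
  obtain ⟨n, ω, hn, hω, hcd, hY⟩ := hx
  exact ⟨n, ω, pre_of ho hb hn hω hY h2 h3 hcd⟩

/-- **(I4a)** on the canonical space: the carpets have boundary loops, which are a measurable
function of them, with law nested CLE₄. -/
theorem gam_law (ho : IsOpen V) (hb : Bornology.IsBounded V) (hne : V.Nonempty)
    (hsc : SimplyConnectedSpace V) (h : T211Q.FairCarpets P V G ξ) {ν : Measure LoopColl}
    (hν : IsNestedCLE4 V ν) :
    (∀ᵐ s ∂(lawS P G), HoleLoops V s (Gam V s)) ∧ AEMeasurable (Gam V) (lawS P G) ∧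
      (lawS P G).map (Gam V) = ν := by
  obtain ⟨S⟩ := EXA.exists_approx V ho hb hne hsc
  have hL := lawS_prob h
  have hνp := EX211.isProb hν
  obtain ⟨h1, h2⟩ := pass_law ho hb hne hsc S h
  have hm : AEMeasurable (Gam V) (lawS P G) := by
    refine EX211.meas SQ inferInstance (lawS P G) _
      (⋃ n : ℕ, (fun ω => LL (S.δ n) (S.a n) ω) '' (DD (S.T n).V : Set Conf))
      (Set.countable_iUnion fun n => ((DD (S.T n).V).finite_toSet.image _).countable) ?_
      fun F hF hFb => (h1 F hF hFb).1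
    filter_upwards [h2] with x hx
    obtain ⟨n, ω, hpre⟩ := hx
    refine mem_closure_of_tendsto (conv_of_pre jord hpre) (Eventually.of_forall fun j => ?_)
    exact Set.mem_iUnion.2 ⟨n j, ω j, hpre.good.mem j, rfl⟩
  refine ⟨?_, hm, ?_⟩
  · filter_upwards [h2] with x hx
    obtain ⟨n, ω, hpre⟩ := hx
    exact holeLoops_of_pre jord hpre
  · have := Measure.isProbabilityMeasure_map hm
    refine EX211.measure_ext fun F hF hC => ?_
    rw [integral_map hm hF.aestronglyMeasurable]
    exact tendsto_nhds_unique (h1 F hF hC).2 (QQ.q1 V ho hb hne hsc S ν hν F hF hC)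

end

end Vale.Agent.P155.NO801.Y
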