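import Vale.Agent.P155.NO801.YF
import Vale.Agent.P155.NO801.Def

/-!
# P155, (I4b): the loops inside a hole are the loops of the carpets in the hole
-/

namespace Vale.Agent.P155.NO801.Y

open Set MeasureTheory Filter Topology TopologicalSpace ProbabilityTheory Vale.Agent.P155
  Vale.Agent.P155.Q1 Vale.Agent.P155.EX

theorem range_sub_of_mk {c c' : PL} (h : (SeparationQuotient.mk c : Loop) = SeparationQuotient.mk c') :
    range c.c ⊆ range c'.c := by
  intro z hz
  have h0 : dist c' c = 0 := by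
    rw [dist_comm]
    exact Metric.inseparable_iff.1 (SeparationQuotient.mk_eq_mk.1 h)
  have h1 := pnr_le z c' c
  have h2 : pnr z c = 0 := Metric.infDist_zero_of_mem hz
  have h3 : 0 ≤ pnr z c' := Metric.infDist_nonneg
  have h4 : Metric.infDist z (range c'.c) = 0 := by
    have : pnr z c' = 0 := by linarith
    exact this
  have hne : (range c'.c).Nonempty := ⟨c'.c 0, 0, rfl⟩
  have hcl : IsClosed (range c'.c) := (isCompact_range c'.c.continuous).isClosed
  exact (hcl.mem_iff_infDist_zero hne).2 h4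

theorem range_eq_of_mk {c c' : PL} (h : (SeparationQuotient.mk c : Loop) = SeparationQuotient.mk c') :
    range c.c = range c'.c :=
  Subset.antisymm (range_sub_of_mk h) (range_sub_of_mk h.symm)

theorem lin_iff {c : PL} {l : Loop} (h : SeparationQuotient.mk c = l) (U : Set ℂ) :
    YD.LIn l U ↔ range c.c ⊆ U := by
  constructor
  · intro h1
    exact h1 c h
  · intro h1 γ hγ
    rw [range_eq_of_mk (hγ.trans h.symm)]
    exact h1

/-! ### topology of the holes -/

section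

variable {Ω : Set ℂ} {A : NonemptyCompacts ℂ} {V : Set ℂ}

theorem hole_isOpen (ho : IsOpen Ω) (hV : IsHole Ω A V) : IsOpen V := by
  obtain ⟨z, -, rfl⟩ := hV
  exact (ho.sdiff A.isCompact.isClosed).connectedComponentIn

theorem hole_sub (hV : IsHole Ω A V) : V ⊆ Ω \ (A : Set ℂ) := by
  obtain ⟨z, -, rfl⟩ := hV
  exact connectedComponentIn_subset _ _

theorem hole_ne (hV : IsHole Ω A V) : V.Nonempty := by
  obtain ⟨z, hz, rfl⟩ := hV
  exact ⟨z, mem_connectedComponentIn hz⟩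

theorem hole_bdd (hb : Bornology.IsBounded Ω) (hV : IsHole Ω A V) : Bornology.IsBounded V :=
  hb.subset ((hole_sub hV).trans sdiff_subset)

theorem hole_eq (hV : IsHole Ω A V) {w : ℂ} (hw : w ∈ V) :
    V = connectedComponentIn (Ω \ (A : Set ℂ)) w := by
  obtain ⟨z, -, rfl⟩ := hV
  exact connectedComponentIn_eq hw

theorem hole_conn (hV : IsHole Ω A V) : IsConnected V := by
  obtain ⟨z, hz, rfl⟩ := hV
  exact isConnected_connectedComponentIn_iff.2 hz

/-- the frontier of a hole does not meet `Ω \ A` -/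
theorem hole_frontier (ho : IsOpen Ω) (hV : IsHole Ω A V) :
    Disjoint (frontier V) (Ω \ (A : Set ℂ)) := by
  rw [disjoint_left]
  intro w hw hwO
  have hop : IsOpen (connectedComponentIn (Ω \ (A : Set ℂ)) w) :=
    (ho.sdiff A.isCompact.isClosed).connectedComponentIn
  have hww : w ∈ connectedComponentIn (Ω \ (A : Set ℂ)) w := mem_connectedComponentIn hwO
  obtain ⟨x, hx1, hx2⟩ := mem_closure_iff.1 (frontier_subset_closure hw) _ hop hww
  have e : connectedComponentIn (Ω \ (A : Set ℂ)) w = V := by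
    rw [hole_eq hV hx2]
    exact connectedComponentIn_eq hx1
  rw [e] at hww
  rw [(hole_isOpen ho hV).frontier_eq] at hw
  exact hw.2 hww

/-- the frontier of a hole is contained in `A`, if `frontier Ω ⊆ A` -/
theorem hole_frontier_sub (ho : IsOpen Ω) (hfr : frontier Ω ⊆ (A : Set ℂ)) (hV : IsHole Ω A V) :
    frontier V ⊆ (A : Set ℂ) := by
  intro w hw
  by_contra hwA
  have h1 : w ∈ closure Ω :=
    closure_mono ((hole_sub hV).trans sdiff_subset) (frontier_subset_closure hw)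
  have h2 : w ∈ Ω := by
    by_contra hwΩ
    exact hwA (hfr (by rw [ho.frontier_eq]; exact ⟨h1, hwΩ⟩))
  exact disjoint_left.1 (hole_frontier ho hV) hw ⟨h2, hwA⟩

theorem frontier_ne (hb : Bornology.IsBounded Ω) (hV : IsHole Ω A V) : (frontier V).Nonempty := by
  rw [nonempty_frontier_iff]
  refine ⟨hole_ne hV, fun hu => ?_⟩
  have := hole_bdd hb hV
  rw [hu] at this
  exact NormedSpace.unbounded_univ ℂ ℂ this

end

section

variable {Ω : Set ℂ} {s : SQ} {V : Set ℂ}

/-- the carpets form an increasing sequence over `frontier Ω` -/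
structure Mon (Ω : Set ℂ) (s : SQ) : Prop where
  fr : frontier Ω ⊆ (s 0 : Set ℂ)
  mono : ∀ k, (s k : Set ℂ) ⊆ s (k + 1)

theorem Mon.le (h : Mon Ω s) {j k : ℕ} (hjk : j ≤ k) : (s j : Set ℂ) ⊆ s k := by
  induction k, hjk using Nat.le_induction with
  | base => exact Subset.rfl
  | succ k _ ih => exact ih.trans (h.mono k)

theorem coe_rst (ho : IsOpen Ω) (hb : Bornology.IsBounded Ω) (h : Mon Ω s)
    (hV : IsHole Ω (s 1) V) (k : ℕ) : (rst V s k : Set ℂ) = (s (k + 1) : Set ℂ) ∩ closure V := by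
  have hne : ((s (k + 1) : Set ℂ) ∩ closure V).Nonempty := by
    obtain ⟨w, hw⟩ := frontier_ne hb hV
    exact ⟨w, h.le (by omega) (hole_frontier_sub ho (h.fr.trans (h.mono 0)) hV hw),
      frontier_subset_closure hw⟩
  unfold rst
  rw [dif_pos hne]
  rfl

theorem diff_rst (ho : IsOpen Ω) (hb : Bornology.IsBounded Ω) (h : Mon Ω s)
    (hV : IsHole Ω (s 1) V) (k : ℕ) : V \ (rst V s k : Set ℂ) = V \ (s (k + 1) : Set ℂ) := by
  rw [coe_rst ho hb h hV]
  ext w
  constructor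
  · rintro ⟨h1, h2⟩
    exact ⟨h1, fun h3 => h2 ⟨h3, subset_closure h1⟩⟩
  · rintro ⟨h1, h2⟩
    exact ⟨h1, fun h3 => h2 h3.1⟩

theorem comp_rst (ho : IsOpen Ω) (hb : Bornology.IsBounded Ω) (h : Mon Ω s)
    (hV : IsHole Ω (s 1) V) (k : ℕ) {z : ℂ} (hz : z ∈ V \ (s (k + 1) : Set ℂ)) :
    connectedComponentIn (V \ (rst V s k : Set ℂ)) z =
      connectedComponentIn (Ω \ (s (k + 1) : Set ℂ)) z := by
  rw [diff_rst ho hb h hV]
  have hsub : V \ (s (k + 1) : Set ℂ) ⊆ Ω \ (s (k + 1) : Set ℂ) :=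
    fun w hw => ⟨(hole_sub hV hw.1).1, hw.2⟩
  refine Subset.antisymm (connectedComponentIn_mono z hsub) ?_
  have hz' := hsub hz
  have h1 : connectedComponentIn (Ω \ (s (k + 1) : Set ℂ)) z ⊆ V := by
    rw [hole_eq hV hz.1]
    refine isPreconnected_connectedComponentIn.subset_connectedComponentIn
      (mem_connectedComponentIn hz') ?_
    refine (connectedComponentIn_subset _ _).trans ?_
    exact sdiff_subset_sdiff_right (h.le (by omega))
  exact isPreconnected_connectedComponentIn.subset_connectedComponentIn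
    (mem_connectedComponentIn hz') fun w hw => ⟨h1 hw, (connectedComponentIn_subset _ _ hw).2⟩

theorem isHole_rst (ho : IsOpen Ω) (hb : Bornology.IsBounded Ω) (h : Mon Ω s)
    (hV : IsHole Ω (s 1) V) (k : ℕ) (U : Set ℂ) :
    IsHole V (rst V s k) U ↔ IsHole Ω (s (k + 1)) U ∧ U ⊆ V := by
  constructor
  · rintro ⟨z, hz, rfl⟩
    rw [diff_rst ho hb h hV] at hz
    rw [comp_rst ho hb h hV k hz]
    refine ⟨⟨z, ⟨(hole_sub hV hz.1).1, hz.2⟩, rfl⟩, ?_⟩
    rw [← comp_rst ho hb h hV k hz]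
    exact (connectedComponentIn_subset _ _).trans sdiff_subset
  · rintro ⟨⟨z, hz, rfl⟩, hU⟩
    have hz' : z ∈ V \ (s (k + 1) : Set ℂ) := ⟨hU (mem_connectedComponentIn hz), hz.2⟩
    refine ⟨z, ?_, (comp_rst ho hb h hV k hz').symm⟩
    rw [diff_rst ho hb h hV]
    exact hz'

/-- a hole of level `≥ 1` whose frontier is in `V` is a hole of level `≥ 2` in `V` -/
theorem hole_of_frontier (ho : IsOpen Ω) (hb : Bornology.IsBounded Ω) (h : Mon Ω s)
    (hV : IsHole Ω (s 1) V) {k : ℕ} (hk : 1 ≤ k) {U : Set ℂ} (hU : IsHole Ω (s k) U)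
    (hf : frontier U ⊆ V) : 2 ≤ k ∧ U ⊆ V := by
  have hfr := h.fr.trans (h.mono 0)
  obtain ⟨w, hw⟩ := frontier_ne hb hU
  have h2 : 2 ≤ k := by
    by_contra hlt
    have hk1 : k = 1 := by omega
    subst hk1
    exact (hole_sub hV (hf hw)).2 (hole_frontier_sub ho hfr hU hw)
  refine ⟨h2, ?_⟩
  obtain ⟨x, hx1, hx2⟩ := mem_closure_iff.1 (frontier_subset_closure hw) V (hole_isOpen ho hV)
    (hf hw)
  rw [hole_eq hV hx1]
  refine (hole_conn hU).isPreconnected.subset_connectedComponentIn hx2 ?_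
  exact (hole_sub hU).trans (sdiff_subset_sdiff_right (h.le (by omega)))

/-- **(I4b)** -/
theorem inside_eq (ho : IsOpen Ω) (hb : Bornology.IsBounded Ω) (h : Mon Ω s)
    (hV : IsHole Ω (s 1) V) {Γ Γ' : LoopColl} (hΓ : HoleLoops Ω s Γ)
    (hΓ' : HoleLoops V (rst V s) Γ') : YD.inside Γ V = Γ' := by
  classical
  apply LoopColl.ext
  funext l
  show (if YD.LIn l V then Γ.mult l else 0) = Γ'.mult l
  rw [hΓ.mult, hΓ'.mult]
  by_cases hl : YD.LIn l V
  · rw [if_pos hl]
    have e : {p : ℕ × Set ℂ | 1 ≤ p.1 ∧ IsHole Ω (s p.1) p.2 ∧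
        ∃ c : PL, IsJordan c (frontier p.2) ∧ SeparationQuotient.mk c = l} =
        (fun p : ℕ × Set ℂ => (p.1 + 1, p.2)) '' {p : ℕ × Set ℂ | 1 ≤ p.1 ∧
          IsHole V (rst V s p.1) p.2 ∧
          ∃ c : PL, IsJordan c (frontier p.2) ∧ SeparationQuotient.mk c = l} := by
      ext ⟨k, U⟩
      constructor
      · rintro ⟨h1, h2, c, hc, hcl⟩
        have hf : frontier U ⊆ V := by
          rw [← hc.2]
          exact hl c hcl
        obtain ⟨h3, h4⟩ := hole_of_frontier ho hb h hV h1 h2 hf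
        obtain ⟨j, rfl⟩ : ∃ j, k = j + 1 := ⟨k - 1, by omega⟩
        refine ⟨(j, U), ⟨by simp only; omega, ?_, c, hc, hcl⟩, rfl⟩
        exact (isHole_rst ho hb h hV j U).2 ⟨h2, h4⟩
      · rintro ⟨⟨j, U'⟩, ⟨h1, h2, c, hc, hcl⟩, he⟩
        simp only [Prod.mk.injEq] at he
        obtain ⟨rfl, rfl⟩ := he
        exact ⟨by simp only; omega, ((isHole_rst ho hb h hV j U').1 h2).1, c, hc, hcl⟩
    rw [e]
    exact ncard_image_of_injective _ fun p q hpq => by
      simp only [Prod.mk.injEq, Nat.add_right_cancel_iff] at hpq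
      exact Prod.ext hpq.1 hpq.2
  · rw [if_neg hl]
    have e : {p : ℕ × Set ℂ | 1 ≤ p.1 ∧ IsHole V (rst V s p.1) p.2 ∧
        ∃ c : PL, IsJordan c (frontier p.2) ∧ SeparationQuotient.mk c = l} = ∅ := by
      rw [eq_empty_iff_forall_notMem]
      rintro ⟨k, U⟩ ⟨h1, h2, c, hc, hcl⟩
      apply hl
      rw [lin_iff hcl, hc.2]
      exact hΓ'.inside k U h1 h2
    rw [e, ncard_empty]

/-- every loop is the boundary of a hole of the first carpet or lies in a hole of it -/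
theorem loop_cases (ho : IsOpen Ω) (hb : Bornology.IsBounded Ω) (h : Mon Ω s)
    {Γ : LoopColl} (hΓ : HoleLoops Ω s Γ)
    (hall : ∀ V, IsHole Ω (s 1) V → ∃ Γ', HoleLoops V (rst V s) Γ') (l : Loop)
    (hl : Γ.mult l ≠ 0) : ∃ V, IsHole Ω (s 1) V ∧
      ((∃ γ : PL, IsJordan γ (frontier V) ∧ SeparationQuotient.mk γ = l) ∨ YD.LIn l V) := by
  rw [hΓ.mult] at hl
  obtain ⟨⟨k, U⟩, h1, h2, c, hc, hcl⟩ := nonempty_of_ncard_ne_zero hl
  simp only at h1 h2 hc
  by_cases hk : k = 1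
  · subst hk
    exact ⟨U, h2, Or.inl ⟨c, hc, hcl⟩⟩
  · obtain ⟨j, rfl⟩ : ∃ j, k = j + 1 := ⟨k - 1, by omega⟩
    have h2' := h2
    obtain ⟨z, hz, rfl⟩ := h2'
    have hz1 : z ∈ Ω \ (s 1 : Set ℂ) := ⟨hz.1, fun h3 => hz.2 (h.le (by omega) h3)⟩
    have hW : IsHole Ω (s 1) (connectedComponentIn (Ω \ (s 1 : Set ℂ)) z) := ⟨z, hz1, rfl⟩
    refine ⟨_, hW, Or.inr ?_⟩
    rw [lin_iff hcl, hc.2]
    obtain ⟨Γ', hΓ'⟩ := hall _ hW
    refine hΓ'.inside j _ (by omega) ((isHole_rst ho hb h hW j _).2 ⟨h2, ?_⟩)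
    exact connectedComponentIn_mono z (sdiff_subset_sdiff_right (h.le (by omega)))

end

end Vale.Agent.P155.NO801.Y
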