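import Vale.Agent.P155.NO801.Y4a
import Vale.Agent.P155.NO801.Y4b
import Vale.Agent.P155.K.Conn2

/-!
# P155, (I5): nested CLE₄ is iterated by conditionally independent copies
-/

namespace Vale.Agent.P155.NO801.Y

open Set MeasureTheory Filter Topology TopologicalSpace ProbabilityTheory Vale.Agent.P155
  Vale.Agent.P155.Q1 Vale.Agent.P155.EX

section

variable {Ω : Set ℂ} {Θ : Type} [MeasurableSpace Θ] {P : Measure Θ}
  {G : ℕ → Θ → NonemptyCompacts ℂ} {ξ : ℕ → ℕ → Θ → ℝ} {Γ : Θ → LoopColl}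

theorem fair_of_nested (h : YD.Nested P Ω G ξ Γ) : T211Q.FairCarpets P Ω G ξ :=
  ⟨h.prob, h.measξ, h.sgn, h.fair, h.indξ, h.measG, h.indG, h.carp⟩

theorem lawS_mon (h : T211Q.FairCarpets P Ω G ξ) : ∀ᵐ s ∂(lawS P G), Mon Ω s := by
  have h1 : ∀ᵐ s ∂(lawS P G), ∀ k, (s k : Set ℂ) ⊆ s (k + 1) := by
    unfold lawS
    rw [ae_map_iff (measurable_seq h).aemeasurable]
    · filter_upwards [h.sc.mono] with x hx k
      exact (hx k).1
    · rw [Set.ofPred_forall]
      refine MeasurableSet.iInter fun k => ?_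
      have h0 : Measurable fun s : SQ => (s k, s (k + 1)) :=
        (measurable_pi_apply k).prodMk (measurable_pi_apply (k + 1))
      exact h0 U613.isClosed_subset.measurableSet
  filter_upwards [lawS_zero h, h1] with s hs hs1
  exact ⟨hs.symm.subset, hs1⟩

theorem lawS_conn (h : T211Q.FairCarpets P Ω G ξ) :
    ∀ᵐ s ∂(lawS P G), ∀ k, IsConnected (s k : Set ℂ) := by
  unfold lawS
  rw [ae_map_iff (measurable_seq h).aemeasurable]
  · exact h.sc.conn
  · rw [Set.ofPred_forall]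
    refine MeasurableSet.iInter fun k => ?_
    have h0 : Measurable fun s : SQ => s k := measurable_pi_apply k
    exact h0 (KConn.isClosed_connected (α := ℂ)).measurableSet

/-- the holes of a compact set are countably many -/
theorem holes_countable (ho : IsOpen Ω) (A : NonemptyCompacts ℂ) :
    {V | IsHole Ω A V}.Countable := by
  refine Set.PairwiseDisjoint.countable_of_isOpen (s := id) ?_ ?_ ?_
  · intro V hV W hW hne
    rw [Function.onFun, disjoint_left]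
    intro z hz hz'
    exact hne ((hole_eq hV hz).trans (hole_eq hW hz').symm)
  · exact fun V hV => hole_isOpen ho hV
  · exact fun V hV => hole_ne hV

/-- the law of the loops in one hole -/
theorem one_hole {V : Set ℂ} (ho : IsOpen V) (hb : Bornology.IsBounded V) (hne : V.Nonempty)
    (hsc : SimplyConnectedSpace V) {κ : Measure SQ}
    (hm : AEMeasurable (fun s => rst V s) κ)
    (hlaw : ∀ (Θ' : Type) (_ : MeasurableSpace Θ') (P' : Measure Θ')
      (G' : ℕ → Θ' → NonemptyCompacts ℂ) (H' : ℕ → Θ' → (ℂ → ℝ) → ℝ),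
      IsProbabilityMeasure P' → IsSignedCarpets P' V G' H' →
      κ.map (rst V) = P'.map (fun x k => G' k x)) :
    (∀ᵐ s ∂κ, HoleLoops V (rst V s) (Gam V (rst V s))) ∧
      AEMeasurable (Gam V) (κ.map (rst V)) ∧
      IsNestedCLE4 V ((κ.map (rst V)).map (Gam V)) := by
  obtain ⟨μ, hμ⟩ := EX.exists_nested_of pin_bdt.1 pin_bdt.2 EX.jord EX211.meas ho hb hne hsc
  obtain ⟨Θ', mΘ', P', G', ξ', Γ', h', -⟩ := YD.isNestedCLE4_iff.1 hμ
  have e := hlaw Θ' mΘ' P' G' _ h'.prob h'.carp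
  obtain ⟨h1, h2, h3⟩ := gam_law ho hb hne hsc (fair_of_nested h') hμ
  have e' : κ.map (rst V) = lawS P' G' := e
  rw [← e'] at h1 h2 h3
  exact ⟨ae_of_ae_map hm h1, h2, h3 ▸ hμ⟩

/-- **(I)** -/
theorem iterK_of (hI : ITER) (hS : HSC) (ho : IsOpen Ω) (hb : Bornology.IsBounded Ω)
    (hne : Ω.Nonempty) (hsc : SimplyConnectedSpace Ω) (h : YD.Nested P Ω G ξ Γ) :
    IterK Ω P G Γ := by
  have hf := fair_of_nested h
  obtain ⟨X, mX, ν, κ, a, hν, hκ, ha, hdis, hy⟩ :=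
    hI Ω ho hb hne hsc Θ inferInstance P G _ h.prob h.carp
  have hν4 : IsNestedCLE4 Ω (P.map Γ) :=
    YD.isNestedCLE4_iff.2 ⟨Θ, inferInstance, P, G, ξ, Γ, h, rfl⟩
  obtain ⟨h1, h2, h3⟩ := gam_law ho hb hne hsc hf hν4
  refine ⟨X, mX, ν, κ, a, Gam Ω, hν, hκ, ha, hdis, h2, ?_, ?_⟩
  · have h4 : ∀ᵐ x ∂P, HoleLoops Ω (fun k => G k x) (Gam Ω (fun k => G k x)) :=
      ae_of_ae_map (measurable_seq hf).aemeasurable h1
    filter_upwards [h4, h.loops] with x hx hx'
    exact holeLoops_unique hx hx'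
  have hall : ∀ᵐ s ∂(ν.bind κ), HoleLoops Ω s (Gam Ω s) ∧ Mon Ω s ∧
      ∀ k, IsConnected (s k : Set ℂ) := by
    rw [← hdis]
    filter_upwards [h1, lawS_mon hf, lawS_conn hf] with s h4 h5 h6
    exact ⟨h4, h5, h6⟩
  filter_upwards [hy, Measure.ae_ae_of_ae_comp hall] with y hy hys
  obtain ⟨hy1, hy2, hy3⟩ := hy
  -- the first carpet
  obtain ⟨s0, hs0, hs0'⟩ := (hy1.and hys).exists
  have hK : IsConnected (a y : Set ℂ) := hs0 ▸ hs0'.2.2 1
  have hfr : frontier Ω ⊆ (a y : Set ℂ) := by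
    rw [← hs0]
    exact hs0'.2.1.fr.trans (hs0'.2.1.mono 0)
  have hole : ∀ V, IsHole Ω (a y) V → IsOpen V ∧ SimplyConnectedSpace V ∧
      AEMeasurable (fun s => rst V s) (κ y) ∧
      (∀ᵐ s ∂(κ y), HoleLoops V (rst V s) (Gam V (rst V s))) ∧
      AEMeasurable (Gam V) ((κ y).map (rst V)) ∧
      IsNestedCLE4 V (((κ y).map (rst V)).map (Gam V)) := by
    intro V hV
    have hVo := hole_isOpen ho hV
    have hVs := hS Ω (a y) V ho hb hK hfr hV
    have hVm : AEMeasurable (fun s => rst V s) (κ y) :=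
      (hy2 1 (fun _ => V) (Function.injective_of_subsingleton _) fun _ => hV).1 0
    exact ⟨hVo, hVs, hVm, one_hole hVo (hole_bdd hb hV) (hole_ne hV) hVs hVm
      fun Θ' mΘ' P' G' H' h1 h2 => hy3 V hV Θ' mΘ' P' G' H' h1 h2⟩
  have ins : ∀ V, IsHole Ω (a y) V →
      (fun s => YD.inside (Gam Ω s) V) =ᵐ[κ y] (Gam V) ∘ (fun s => rst V s) := by
    intro V hV
    filter_upwards [hy1, hys, (hole V hV).2.2.2.1] with s h4 h5 h6
    exact inside_eq ho hb h5.2.1 (h4.symm ▸ hV) h5.1 h6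
  refine ⟨?_, fun m V hinj hV => ⟨?_, fun i => ?_⟩⟩
  · have hc : ∀ᵐ s ∂(κ y), ∀ V ∈ {V | IsHole Ω (a y) V},
        HoleLoops V (rst V s) (Gam V (rst V s)) :=
      (ae_ball_iff (holes_countable ho (a y))).2 fun V hV => (hole V hV).2.2.2.1
    filter_upwards [hy1, hys, hc] with s h4 h5 h6
    refine ⟨h5.1, h4, fun l hl => ?_⟩
    rw [← h4]
    refine loop_cases ho hb h5.2.1 h5.1 (fun V hV => ⟨_, h6 V ?_⟩) l hl
    rw [← h4]
    exact hV
  · refine (iIndepFun_congr fun i => ins (V i) (hV i)).2 ?_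
    exact (hy2 m V hinj hV).2.comp₀ (fun i => Gam (V i)) (fun i => (hole (V i) (hV i)).2.2.1)
      fun i => (hole (V i) (hV i)).2.2.2.2.1
  · obtain ⟨q1, q2, q3, q4, q5, q6⟩ := hole (V i) (hV i)
    have q7 : AEMeasurable (Gam (V i) ∘ fun s => rst (V i) s) (κ y) := q5.comp_aemeasurable q3
    refine ⟨q1, q2, q7.congr (ins (V i) (hV i)).symm, ?_⟩
    rw [Measure.map_congr (ins (V i) (hV i)), ← AEMeasurable.map_map_of_aemeasurable q5 q3]
    exact q6

end

end Vale.Agent.P155.NO801.Y
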