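import Vale.Agent.P155.U.Iface
import Vale.Agent.P155.EX.Coll

/-!
# P155: nested CLE₄ is iterated by conditionally independent copies: definitions and interface
-/

namespace Vale.Agent.P155.NO801.Y

open MeasureTheory Filter Topology TopologicalSpace ProbabilityTheory Vale.Agent.P155
  Vale.Agent.P155.Q1

/-- sequences of carpets -/
abbrev SQ : Type := ℕ → NonemptyCompacts ℂ

open Classical in
/-- the carpets of levels `≥ 1` in the closure of `V` (`V` is a hole of the carpet of level `1`);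
junk value if it is empty -/
noncomputable def rst (V : Set ℂ) (s : SQ) : SQ := fun k =>
  if h : ((s (k + 1) : Set ℂ) ∩ closure V).Nonempty then
    ⟨⟨(s (k + 1) : Set ℂ) ∩ closure V, (s (k + 1)).isCompact.inter_right isClosed_closure⟩, h⟩
  else ⟨⟨{0}, isCompact_singleton⟩, by simp⟩

/-- **ITER**: conditionally on the first level (and possibly on more), the carpets in the holes of
the first carpet are independent, and distributed as the carpets of the holes. -/
def ITER : Prop :=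
  ∀ Ω : Set ℂ, IsOpen Ω → Bornology.IsBounded Ω → Ω.Nonempty → SimplyConnectedSpace Ω →
  ∀ (Θ : Type) (_ : MeasurableSpace Θ) (P : Measure Θ) (G : ℕ → Θ → NonemptyCompacts ℂ)
    (H : ℕ → Θ → (ℂ → ℝ) → ℝ), IsProbabilityMeasure P → IsSignedCarpets P Ω G H →
  ∃ (X : Type) (_ : MeasurableSpace X) (ν : Measure X) (κ : Kernel X SQ)
    (a : X → NonemptyCompacts ℂ), IsProbabilityMeasure ν ∧ IsMarkovKernel κ ∧ Measurable a ∧
    P.map (fun x k => G k x) = ν.bind κ ∧
    ∀ᵐ y ∂ν, (∀ᵐ s ∂(κ y), s 1 = a y) ∧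
      (∀ (m : ℕ) (V : Fin m → Set ℂ), Function.Injective V → (∀ i, IsHole Ω (a y) (V i)) →
        (∀ i, AEMeasurable (fun s => rst (V i) s) (κ y)) ∧
        iIndepFun (fun i s => rst (V i) s) (κ y)) ∧
      ∀ V, IsHole Ω (a y) V →
        ∀ (Θ' : Type) (_ : MeasurableSpace Θ') (P' : Measure Θ')
          (G' : ℕ → Θ' → NonemptyCompacts ℂ) (H' : ℕ → Θ' → (ℂ → ℝ) → ℝ),
          IsProbabilityMeasure P' → IsSignedCarpets P' V G' H' →
          (κ y).map (rst V) = P'.map (fun x k => G' k x)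

/-- holes of the carpets are simply connected domains -/
def HSC : Prop := ∀ (Ω : Set ℂ) (K : NonemptyCompacts ℂ) (V : Set ℂ), IsOpen Ω →
  Bornology.IsBounded Ω → IsConnected (K : Set ℂ) → frontier Ω ⊆ K → IsHole Ω K V →
  SimplyConnectedSpace V

/-! ## Loops -/

/-- the loop `γ` lies in `V` -/
def InV (V : Set ℂ) (γ : Loop) : Prop :=
  ∃ c : PL, SeparationQuotient.mk c = γ ∧ Set.range c.c ⊆ V

open Classical in
/-- the members of the collection `Γ` which lie in `V` -/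
noncomputable def ins (V : Set ℂ) (Γ : LoopColl) : LoopColl where
  mult γ := if InV V γ then Γ.mult γ else 0
  nonconst γ h := Γ.nonconst γ (by
    intro h0
    apply h
    split_ifs
    · exact h0
    · rfl)
  fin ε hε := (Γ.fin ε hε).subset (by
    rintro γ ⟨h1, h2⟩
    refine ⟨fun h0 => h1 ?_, h2⟩
    split_ifs
    · exact h0
    · rfl)

/-- the hole of the carpet `K` at `z` -/
def hole (Ω : Set ℂ) (K : NonemptyCompacts ℂ) (z : ℂ) : Set ℂ :=
  connectedComponentIn (Ω \ (K : Set ℂ)) z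

/-- the points `z i` are in distinct holes of `K` -/
def Dist (Ω : Set ℂ) (K : NonemptyCompacts ℂ) {m : ℕ} (z : Fin m → ℂ) : Prop :=
  (∀ i, z i ∈ Ω \ (K : Set ℂ)) ∧ ∀ i j, hole Ω K (z i) = hole Ω K (z j) → i = j

/-- **(I)** iteration: given the first carpet, the loops of `Γ` in its holes are independent nested
CLE₄'s of the holes (`ν V` is the law of nested CLE₄ in `V`). -/
def IterLaw (Ω : Set ℂ) {Θ : Type} [MeasurableSpace Θ] (P : Measure Θ)
    (G1 : Θ → NonemptyCompacts ℂ) (Γ : Θ → LoopColl) : Prop :=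
  ∀ ν : Set ℂ → Measure LoopColl,
    (∀ V, IsOpen V → Bornology.IsBounded V → V.Nonempty → SimplyConnectedSpace V →
      IsNestedCLE4 V (ν V)) →
  ∀ (m : ℕ) (z : Fin m → ℂ) (F : Fin m → LoopColl → ℝ), (∀ i, Continuous (F i)) →
    (∀ i, ∃ C, ∀ Γ, |F i Γ| ≤ C) → ∀ Φ : NonemptyCompacts ℂ → ℝ, Continuous Φ →
    (∃ C, ∀ K, |Φ K| ≤ C) →
    let E : Set Θ := {x | Dist Ω (G1 x) z}
    Integrable (E.indicator fun x => Φ (G1 x) * ∏ i, F i (ins (hole Ω (G1 x) (z i)) (Γ x))) P ∧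
    Integrable (E.indicator fun x => Φ (G1 x) * ∏ i, ∫ γ, F i γ ∂(ν (hole Ω (G1 x) (z i)))) P ∧
    ∫ x in E, Φ (G1 x) * ∏ i, F i (ins (hole Ω (G1 x) (z i)) (Γ x)) ∂P =
      ∫ x in E, Φ (G1 x) * ∏ i, ∫ γ, F i γ ∂(ν (hole Ω (G1 x) (z i))) ∂P

end Vale.Agent.P155.NO801.Y
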