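import Vale.Agent.P155.NT924.YDef
import Vale.Agent.P155.NO801.YI

/-!
# P155: nested CLE₄ is iterated by conditionally independent copies: final form
-/

namespace Vale.Agent.P155.NO801.Y

open MeasureTheory Filter Topology TopologicalSpace ProbabilityTheory Vale.Agent.P155
  Vale.Agent.P155.Q1

/-- **(I) Iteration by conditionally independent copies**: the law of the carpets is the mixture of
laws `κ y` (conditional laws given the first level `y`), `a y` being the first carpet; for almost
every `y`, under `κ y`, every loop is the boundary of a hole of `a y` or lies in a hole of `a y`,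
and the collections of the loops in distinct holes of `a y` are independent, the collection of the
loops in the hole `V` being nested CLE₄ in `V`.  (`C` expresses the loops by the carpets.) -/
def IterK (Ω : Set ℂ) {Θ : Type} [MeasurableSpace Θ] (P : Measure Θ)
    (G : ℕ → Θ → NonemptyCompacts ℂ) (Γ : Θ → LoopColl) : Prop :=
  ∃ (X : Type) (_ : MeasurableSpace X) (ν : Measure X) (κ : Kernel X SQ)
    (a : X → NonemptyCompacts ℂ) (C : SQ → LoopColl), IsProbabilityMeasure ν ∧
    IsMarkovKernel κ ∧ Measurable a ∧ P.map (fun x k => G k x) = ν.bind κ ∧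
    AEMeasurable C (P.map fun x k => G k x) ∧ (∀ᵐ x ∂P, C (fun k => G k x) = Γ x) ∧
    ∀ᵐ y ∂ν, (∀ᵐ s ∂(κ y), HoleLoops Ω s (C s) ∧ s 1 = a y ∧
        ∀ l, (C s).mult l ≠ 0 → ∃ V, IsHole Ω (a y) V ∧
          ((∃ γ : PL, IsJordan γ (frontier V) ∧ SeparationQuotient.mk γ = l) ∨ YD.LIn l V)) ∧
      ∀ (m : ℕ) (V : Fin m → Set ℂ), Function.Injective V → (∀ i, IsHole Ω (a y) (V i)) →
        iIndepFun (fun i s => YD.inside (C s) (V i)) (κ y) ∧
        ∀ i, IsOpen (V i) ∧ SimplyConnectedSpace (V i) ∧
          AEMeasurable (fun s => YD.inside (C s) (V i)) (κ y) ∧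
          IsNestedCLE4 (V i) ((κ y).map fun s => YD.inside (C s) (V i))

end Vale.Agent.P155.NO801.Y
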