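import Vale.Agent.P155.H878.Q1Stmt

/-!
# P155: nested CLE₄: conformal radii and iteration, definitions
-/

namespace Vale.Agent.P155.NCLE

open MeasureTheory Filter Topology TopologicalSpace ProbabilityTheory Vale.Agent.P155
  Vale.Agent.P155.Q1

/-- A realisation of nested CLE₄ in `Ω`: the loops `Γ`, the carpets `G` and the signs `ξ`; this is
the body of `IsNestedCLE4`. -/
structure Nested {Θ : Type} [MeasurableSpace Θ] (P : Measure Θ) (Ω : Set ℂ)
    (G : ℕ → Θ → NonemptyCompacts ℂ) (ξ : ℕ → ℕ → Θ → ℝ) (Γ : Θ → LoopColl) : Prop where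
  prob : IsProbabilityMeasure P
  meas : AEMeasurable Γ P
  loops : ∀ᵐ x ∂P, HoleLoops Ω (fun k => G k x) (Γ x)
  measξ : ∀ k i, Measurable (ξ k i)
  sgn : ∀ k i x, ξ k i x = 1 ∨ ξ k i x = -1
  fair : ∀ k i, P {x | ξ k i x = 1} = 1 / 2
  indξ : iIndepFun (fun p : ℕ × ℕ => ξ p.1 p.2) P
  measG : ∀ k, @Measurable _ _ _ (borel (NonemptyCompacts ℂ)) (G k)
  indG : Indep (⨆ p : ℕ × ℕ, MeasurableSpace.comap (ξ p.1 p.2) inferInstance)
      (⨆ k : ℕ, MeasurableSpace.comap (G k) (borel (NonemptyCompacts ℂ))) P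
  carp : IsSignedCarpets P Ω G
    (fun k x φ => ∫ z, height Ω (fun j => G j x) (fun j i => ξ j i x) k z * φ z)

/-- The conformal radius of `U` seen from `z`: the supremum of `|f'(0)|` over all holomorphic
maps `f` from the unit disc to `U` with `f 0 = z`. -/
noncomputable def crad (U : Set ℂ) (z : ℂ) : ℝ :=
  sSup {r : ℝ | ∃ f : ℂ → ℂ, DifferentiableOn ℂ f (Metric.ball 0 1) ∧
    Set.MapsTo f (Metric.ball 0 1) U ∧ f 0 = z ∧ r = ‖deriv f 0‖}

/-- The hole of `K` in `Ω` around `z` (empty if `z ∈ K`). -/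
def hole (Ω K : Set ℂ) (z : ℂ) : Set ℂ := connectedComponentIn (Ω \ K) z

/-- The decrease of the logarithm of the conformal radius between the holes of `K` and `K'`. -/
noncomputable def ldec (Ω K K' : Set ℂ) (z : ℂ) : ℝ :=
  Real.log (crad (hole Ω K z) z) - Real.log (crad (hole Ω K' z) z)

/-- **Law of the conformal radii** (Schramm, Sheffield, Wilson, for `κ = 4`): almost surely no
carpet contains `z`; given the first `k` carpets, the decrease `T` of the logarithm of the
conformal radius from the hole of `G k` to that of `G (k + 1)` has `E exp (s T) = 1 / cos (π √(2 s))`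
for `0 ≤ s < 1/8`, i.e. the law of the exit time of Brownian motion from `(-π, π)`. -/
def Radii {Θ : Type} [MeasurableSpace Θ] (P : Measure Θ) (Ω : Set ℂ)
    (G : ℕ → Θ → NonemptyCompacts ℂ) : Prop :=
  ∀ z ∈ Ω, (∀ᵐ x ∂P, ∀ k, z ∉ (G k x : Set ℂ)) ∧
    ∀ k, Measurable (fun x => ldec Ω (G k x) (G (k + 1) x) z) ∧
      ∀ s : ℝ, 0 ≤ s → s < 1 / 8 →
        Integrable (fun x => Real.exp (s * ldec Ω (G k x) (G (k + 1) x) z)) P ∧
        ∀ Φ : (Fin (k + 1) → NonemptyCompacts ℂ) → ℝ, Continuous Φ → (∃ C, ∀ y, |Φ y| ≤ C) →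
          ∫ x, Φ (fun j => G j x) * Real.exp (s * ldec Ω (G k x) (G (k + 1) x) z) ∂P =
            (∫ x, Φ (fun j => G j x) ∂P) / Real.cos (Real.pi * Real.sqrt (2 * s))

/-- The loop `l` lies in `U`. -/
def LIn (l : Loop) (U : Set ℂ) : Prop :=
  ∀ γ : PL, SeparationQuotient.mk γ = l → Set.range γ.c ⊆ U

open Classical in
/-- The loops of `Γ` lying in `U`. -/
noncomputable def inside (Γ : LoopColl) (U : Set ℂ) : LoopColl where
  mult l := if LIn l U then Γ.mult l else 0
  nonconst l h := Γ.nonconst l (by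
    intro h0
    apply h
    simp [h0])
  fin ε hε := (Γ.fin ε hε).subset (by
    rintro l ⟨h1, h2⟩
    refine ⟨?_, h2⟩
    intro h0
    apply h1
    simp [h0])

noncomputable local instance instNC : MeasurableSpace (NonemptyCompacts ℂ) := borel _

/-- **Iteration by independent copies**: the law of the carpets is a mixture `∫ κ y dν(y)`, `y`
being the first level, of which `a y` is the carpet (so the law of `G 1` is `ν.map a`); for almost
every `y`, under `κ y`, every loop is the boundary of a hole of `a y` or lies in a hole of `a y`,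
the collections of the loops in distinct holes of `a y` are independent, and that of the loops in
the hole `V` is nested CLE₄ in `V`.  (`C s` is the collection of the loops, the boundaries of the
holes, of the carpets `s`, a measurable function of the carpets.) -/
def Iter {Θ : Type} [MeasurableSpace Θ] (P : Measure Θ) (Ω : Set ℂ)
    (G : ℕ → Θ → NonemptyCompacts ℂ) (Γ : Θ → LoopColl) : Prop :=
  ∃ (X : Type) (_ : MeasurableSpace X) (ν : Measure X)
    (κ : Kernel X (ℕ → NonemptyCompacts ℂ)) (a : X → NonemptyCompacts ℂ)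
    (C : (ℕ → NonemptyCompacts ℂ) → LoopColl), IsProbabilityMeasure ν ∧
    IsMarkovKernel κ ∧ Measurable a ∧ P.map (fun x k => G k x) = ν.bind κ ∧
    AEMeasurable C (P.map fun x k => G k x) ∧ (∀ᵐ x ∂P, C (fun k => G k x) = Γ x) ∧
    ∀ᵐ y ∂ν, (∀ᵐ s ∂(κ y), HoleLoops Ω s (C s) ∧ s 1 = a y ∧
        ∀ l, (C s).mult l ≠ 0 → ∃ V, IsHole Ω (a y) V ∧
          ((∃ γ : PL, IsJordan γ (frontier V) ∧ SeparationQuotient.mk γ = l) ∨ LIn l V)) ∧
      ∀ (m : ℕ) (V : Fin m → Set ℂ), Function.Injective V → (∀ i, IsHole Ω (a y) (V i)) →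
        iIndepFun (fun i s => inside (C s) (V i)) (κ y) ∧
        ∀ i, IsOpen (V i) ∧ SimplyConnectedSpace (V i) ∧
          AEMeasurable (fun s => inside (C s) (V i)) (κ y) ∧
          IsNestedCLE4 (V i) ((κ y).map fun s => inside (C s) (V i))

end Vale.Agent.P155.NCLE
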